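import Mathlib

/-! Polynomial Lipschitz bounds and near-integers. -/

namespace Vale.Agent.P027

open MvPolynomial

theorem lip {σ : Type} (Q : MvPolynomial σ ℤ) : ∃ L M : MvPolynomial σ ℤ,
    ∀ (x y : σ → ℚ) (δ : ℚ), 0 ≤ δ → δ ≤ 1 → (∀ i, |x i - y i| ≤ δ) →
      |aeval x Q - aeval y Q| ≤ δ * aeval x L ∧ |aeval y Q| ≤ aeval x M ∧ 0 ≤ aeval x L := by
  induction Q using MvPolynomial.induction_on with
  | C a =>
    refine ⟨0, C |a|, fun x y δ _ _ _ => ?_⟩
    simp
  | add p q hp hq =>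
    obtain ⟨L, M, h⟩ := hp
    obtain ⟨L', M', h'⟩ := hq
    refine ⟨L + L', M + M', fun x y δ h0 h1 h2 => ?_⟩
    obtain ⟨a1, a2, a3⟩ := h x y δ h0 h1 h2
    obtain ⟨b1, b2, b3⟩ := h' x y δ h0 h1 h2
    simp only [map_add]
    refine ⟨?_, (abs_add_le _ _).trans (add_le_add a2 b2), add_nonneg a3 b3⟩
    rw [add_sub_add_comm, mul_add]
    exact (abs_add_le _ _).trans (add_le_add a1 b1)
  | mul_X p i hp =>
    obtain ⟨L, M, h⟩ := hp
    refine ⟨L * (1 + X i ^ 2) + M, M * (2 + X i ^ 2), fun x y δ h0 h1 h2 => ?_⟩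
    obtain ⟨a1, a2, a3⟩ := h x y δ h0 h1 h2
    have hM : 0 ≤ aeval x M := (abs_nonneg _).trans a2
    have c1 : |x i| ≤ 1 + x i ^ 2 := by
      rw [← sq_abs]
      nlinarith [sq_nonneg (|x i| - 1), abs_nonneg (x i)]
    have c2 : |y i| ≤ 2 + x i ^ 2 := by
      have := abs_sub_abs_le_abs_sub (y i) (x i)
      rw [abs_sub_comm] at this
      linarith [h2 i]
    simp only [map_add, map_mul, map_pow, aeval_X, map_one, map_ofNat]
    generalize aeval x p = u at *
    generalize aeval y p = v at *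
    generalize aeval x L = l at *
    generalize aeval x M = m at *
    refine ⟨?_, ?_, by positivity⟩
    · have e : u * x i - v * y i = (u - v) * x i + v * (x i - y i) := by ring
      rw [e]
      refine (abs_add_le _ _).trans ?_
      rw [abs_mul, abs_mul, mul_add, ← mul_assoc, mul_comm δ m]
      exact add_le_add (mul_le_mul a1 c1 (abs_nonneg _) (mul_nonneg h0 a3))
        (mul_le_mul a2 (h2 i) (abs_nonneg _) hM)
    · rw [abs_mul]
      exact mul_le_mul a2 c2 (abs_nonneg _) hM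

theorem near {x δ : ℚ} (h0 : 0 < δ) (h1 : δ ≤ 1 / 4) (hx : 0 ≤ x)
    (a : ∃ k : ℤ, |x - k| < 1 / 4) (b : ∃ k : ℤ, |x + (1 / 4 - δ) - k| < 1 / 4)
    (c : ∃ k : ℤ, |x - (1 / 4 - δ) - k| < 1 / 4) : ∃ n : ℕ, |x - n| ≤ δ := by
  obtain ⟨k, hk⟩ := a
  obtain ⟨k1, hk1⟩ := b
  obtain ⟨k2, hk2⟩ := c
  rw [abs_lt] at hk hk1 hk2
  have e1 : k1 = k := by
    have p : (k1 : ℚ) < k + 1 := by linarith
    have q : (k : ℚ) < k1 + 1 := by linarith
    have p' : k1 < k + 1 := by exact_mod_cast p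
    have q' : k < k1 + 1 := by exact_mod_cast q
    omega
  have e2 : k2 = k := by
    have p : (k2 : ℚ) < k + 1 := by linarith
    have q : (k : ℚ) < k2 + 1 := by linarith
    have p' : k2 < k + 1 := by exact_mod_cast p
    have q' : k < k2 + 1 := by exact_mod_cast q
    omega
  have k0 : 0 ≤ k := by
    have p : (-1 : ℚ) < k := by linarith
    have p' : -1 < k := by exact_mod_cast p
    omega
  obtain ⟨n, rfl⟩ := Int.eq_ofNat_of_zero_le k0
  rw [e1] at hk1
  rw [e2] at hk2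
  refine ⟨n, abs_le.2 ⟨?_, ?_⟩⟩
  · push_cast at hk2
    linarith
  · push_cast at hk1
    linarith

/-- variables: main, two shifted copies, four squares, and the precision -/
abbrev Var (m : ℕ) : Type := (Fin m × Fin 7) ⊕ Unit

theorem reduce {m : ℕ} (P : MvPolynomial (Fin 1 ⊕ Fin m) ℤ) :
    ∃ (T : Set (Var m)) (g : MvPolynomial (Option (Var m)) ℤ), ∀ a : ℕ,
      (∃ w : Fin m → ℕ, eval (Sum.elim (fun _ => (a : ℤ)) (fun j => (w j : ℤ))) P = 0) ↔
      ∃ x : Var m → ℚ, aeval (fun o : Option (Var m) => o.elim (a : ℚ) x) g = 0 ∧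
        ∀ i ∈ T, ∃ k : ℤ, |x i - k| < 1 / 4 := by
  obtain ⟨L, M, hL⟩ := lip P
  let f : Fin 1 ⊕ Fin m → Option (Var m) := Sum.elim (fun _ => none) fun j => some (.inl (j, 0))
  let v : Fin m → Fin 7 → MvPolynomial (Option (Var m)) ℤ := fun j r => X (some (.inl (j, r)))
  let d : MvPolynomial (Option (Var m)) ℤ := X (some (.inr ()))
  refine ⟨{i | ∃ j, i = .inl (j, 0) ∨ i = .inl (j, 1) ∨ i = .inl (j, 2)},
    rename f P ^ 2 + (d * (rename f L + 4) - 1) ^ 2 +
      ∑ j, ((4 * v j 1 - (4 * v j 0 + 1 - 4 * d)) ^ 2 + (4 * v j 2 - (4 * v j 0 - 1 + 4 * d)) ^ 2 +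
        (v j 0 - (v j 3 ^ 2 + v j 4 ^ 2 + v j 5 ^ 2 + v j 6 ^ 2)) ^ 2), fun a => ?_⟩
  have cast : ∀ w : Fin m → ℕ,
      aeval (Sum.elim (fun _ => (a : ℚ)) (fun j => (w j : ℚ)) : Fin 1 ⊕ Fin m → ℚ) P =
        ((eval (Sum.elim (fun _ => (a : ℤ)) (fun j => (w j : ℤ))) P : ℤ) : ℚ) := by
    intro w
    have e := aeval_algebraMap_apply ℚ
      (Sum.elim (fun _ => (a : ℤ)) (fun j => (w j : ℤ)) : Fin 1 ⊕ Fin m → ℤ) P
    have e2 : (fun i => algebraMap ℤ ℚ
        ((Sum.elim (fun _ => (a : ℤ)) (fun j => (w j : ℤ)) : Fin 1 ⊕ Fin m → ℤ) i)) =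
        Sum.elim (fun _ => (a : ℚ)) (fun j => (w j : ℚ)) := by
      funext i
      rcases i with i | i <;> simp
    exact (congrArg (fun z => aeval z P) e2).symm.trans e
  have hf : ∀ x : Var m → ℚ, (fun o : Option (Var m) => o.elim (a : ℚ) x) ∘ f =
      Sum.elim (fun _ => (a : ℚ)) fun j => x (.inl (j, 0)) := by
    intro x
    funext i
    rcases i with i | i <;> rfl
  constructor
  · rintro ⟨w, hw⟩
    choose s1 s2 s3 s4 hs using fun j => Nat.sum_four_squares (w j)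
    obtain ⟨l, hl⟩ : ∃ l : ℚ, l = aeval (Sum.elim (fun _ => (a : ℚ)) (fun j => (w j : ℚ)) :
      Fin 1 ⊕ Fin m → ℚ) L := ⟨_, rfl⟩
    have l0 : 0 ≤ l := by
      rw [hl]
      exact (hL _ (Sum.elim (fun _ => (a : ℚ)) (fun j => (w j : ℚ))) 0 le_rfl zero_le_one
        fun i => by simp).2.2
    have d0 : 0 < 1 / (l + 4) := by positivity
    have d1 : 1 / (l + 4) ≤ 1 / 4 := one_div_le_one_div_of_le (by norm_num) (by linarith)
    refine ⟨Sum.elim (fun q => ![(w q.1 : ℚ), w q.1 + (1 / 4 - 1 / (l + 4)),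
      w q.1 - (1 / 4 - 1 / (l + 4)), s1 q.1, s2 q.1, s3 q.1, s4 q.1] q.2) fun _ => 1 / (l + 4),
      ?_, ?_⟩
    · simp only [map_add, map_pow, map_sub, map_mul, map_sum, aeval_rename, hf, v, d, aeval_X,
        map_one, map_ofNat, Option.elim_some, Sum.elim_inl, Sum.elim_inr]
      simp only [Matrix.cons_val]
      rw [cast, hw, ← hl, Finset.sum_eq_zero]
      · have : l + 4 ≠ 0 := by positivity
        field_simp
        simp
      · intro j _
        have : (w j : ℚ) = s1 j ^ 2 + s2 j ^ 2 + s3 j ^ 2 + s4 j ^ 2 := by exact_mod_cast (hs j).symm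
        rw [← this]
        ring
    · rintro i ⟨j, rfl | rfl | rfl⟩
      · exact ⟨w j, by simp⟩
      · refine ⟨w j, ?_⟩
        simp only [Sum.elim_inl, Matrix.cons_val, Int.cast_natCast]
        rw [abs_lt]
        constructor <;> linarith
      · refine ⟨w j, ?_⟩
        simp only [Sum.elim_inl, Matrix.cons_val, Int.cast_natCast]
        rw [abs_lt]
        constructor <;> linarith
  · rintro ⟨x, hx, hT⟩
    simp only [map_add, map_pow, map_sub, map_mul, map_sum, aeval_rename, hf, v, d, aeval_X,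
      map_one, map_ofNat, Option.elim_some] at hx
    obtain ⟨z, hz⟩ : ∃ z : Fin 1 ⊕ Fin m → ℚ,
      z = Sum.elim (fun _ => (a : ℚ)) fun j => x (.inl (j, 0)) := ⟨_, rfl⟩
    rw [← hz] at hx
    have l0 : 0 ≤ aeval z L := (hL z z 0 le_rfl zero_le_one fun i => by simp).2.2
    rw [add_eq_zero_iff_of_nonneg (by positivity) (Finset.sum_nonneg fun j _ => by positivity),
      add_eq_zero_iff_of_nonneg (by positivity) (by positivity), pow_eq_zero_iff two_ne_zero,
      pow_eq_zero_iff two_ne_zero,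
      Finset.sum_eq_zero_iff_of_nonneg fun j _ => by positivity] at hx
    obtain ⟨⟨e1, e2⟩, e3⟩ := hx
    obtain ⟨δ, hδ⟩ : ∃ δ, δ = x (.inr ()) := ⟨_, rfl⟩
    rw [← hδ] at e2 e3
    have d0 : 0 < δ := by
      by_contra h
      nlinarith
    have d1 : δ ≤ 1 / 4 := by nlinarith
    have hn : ∀ j, ∃ n : ℕ, |x (.inl (j, 0)) - n| ≤ δ := by
      intro j
      have e := e3 j (Finset.mem_univ _)
      rw [add_eq_zero_iff_of_nonneg (by positivity) (by positivity),
        add_eq_zero_iff_of_nonneg (by positivity) (by positivity), pow_eq_zero_iff two_ne_zero,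
        pow_eq_zero_iff two_ne_zero, pow_eq_zero_iff two_ne_zero] at e
      obtain ⟨⟨f1, f2⟩, f3⟩ := e
      refine near d0 d1 (by rw [sub_eq_zero.1 f3]; positivity) (hT _ ⟨j, Or.inl rfl⟩) ?_ ?_
      · rw [show x (.inl (j, 0)) + (1 / 4 - δ) = x (.inl (j, 1)) by linarith]
        exact hT _ ⟨j, Or.inr (Or.inl rfl)⟩
      · rw [show x (.inl (j, 0)) - (1 / 4 - δ) = x (.inl (j, 2)) by linarith]
        exact hT _ ⟨j, Or.inr (Or.inr rfl)⟩
    choose w hw using hn
    refine ⟨w, ?_⟩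
    have h1 := (hL z (Sum.elim (fun _ => (a : ℚ)) fun j => (w j : ℚ)) δ d0.le (by linarith)
      fun i => by
        rw [hz]
        rcases i with i | i
        · simpa using d0.le
        · exact hw i).1
    rw [e1, zero_sub, abs_neg, cast] at h1
    have h2 : |((eval (Sum.elim (fun _ => (a : ℤ)) (fun j => (w j : ℤ))) P : ℤ) : ℚ)| < 1 := by
      nlinarith
    exact Int.abs_lt_one_iff.1 (by exact_mod_cast h2)

end Vale.Agent.P027
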